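import Mathlib.Analysis.InnerProductSpace.Basic
import Mathlib.Algebra.Order.BigOperators.Ring.Finset
import Mathlib.Data.Finsupp.Defs

/-! Admissible finitely supported functionals on a forest of trees of finite height. -/

noncomputable section

namespace Vale.Agent.P069

open Finset

/-- A node: the index of the component and the path from its root. -/
abbrev Node := ℕ × List ℕ

/-- Finitely supported functions on nodes. -/
abbrev Fn := Node →₀ ℝ

/-- Sum of `φ` over the path from the root to `v`. -/
def pre (φ : Fn) (v : Node) : ℝ := ∑ i ∈ range (v.2.length + 1), φ (v.1, v.2.take i)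

lemma pre_nil (φ : Fn) (n : ℕ) : pre φ (n, []) = φ (n, []) := by simp [pre]

lemma pre_concat (φ : Fn) (n : ℕ) (l : List ℕ) (j : ℕ) :
    pre φ (n, l ++ [j]) = pre φ (n, l) + φ (n, l ++ [j]) := by
  unfold pre
  simp only [List.length_append, List.length_singleton]
  rw [sum_range_succ]
  congr 1
  · refine sum_congr rfl fun i hi => ?_
    rw [List.take_append_of_le_length (by simpa [Nat.lt_succ_iff] using hi)]
  · rw [List.take_of_length_le (by simp)]

lemma pre_add (φ ψ : Fn) (v : Node) : pre (φ + ψ) v = pre φ v + pre ψ v := by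
  simp [pre, sum_add_distrib]

lemma pre_smul (c : ℝ) (φ : Fn) (v : Node) : pre (c • φ) v = c * pre φ v := by
  simp [pre, mul_sum]

lemma pre_sub (φ ψ : Fn) (v : Node) : pre (φ - ψ) v = pre φ v - pre ψ v := by
  simp [pre, sum_sub_distrib]

lemma node_induction {p : Node → Prop} (h0 : ∀ n, p (n, []))
    (h1 : ∀ n l j, p (n, l) → p (n, l ++ [j])) (v : Node) : p v := by
  obtain ⟨n, l⟩ := v
  induction l using List.reverseRecOn with
  | nil => exact h0 n
  | append_singleton l j ih => exact h1 n l j ih

lemma pre_single (u v : Node) (c : ℝ) :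
    pre (Finsupp.single u c) v = if u.1 = v.1 ∧ u.2 <+: v.2 then c else 0 := by
  induction v using node_induction with
  | h0 n =>
    rw [pre_nil, Finsupp.single_apply]
    simp [Prod.ext_iff, List.prefix_nil]
  | h1 n l j ih =>
    rw [pre_concat, ih, Finsupp.single_apply]
    by_cases hu : u = (n, l ++ [j])
    · subst hu
      have : ¬ (l ++ [j]) <+: l := fun h => by simpa using h.length_le
      simp [this]
    · have : ¬ (u.1 = n ∧ u.2 = l ++ [j]) := fun h => hu (Prod.ext h.1 h.2)
      simp only [hu, if_false, add_zero, List.prefix_concat_iff]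
      congr 1
      simp only [eq_iff_iff]
      tauto

lemma pre_filter_fst (p : ℕ → Prop) [DecidablePred p] (φ : Fn) (v : Node) :
    pre (φ.filter fun u => p u.1) v = if p v.1 then pre φ v else 0 := by
  unfold pre
  split <;> simp [Finsupp.filter_apply, *]

/-- Total mass. -/
def tot (q : ℕ →₀ ℝ) : ℝ := q.sum fun _ a => a

lemma tot_add (q r : ℕ →₀ ℝ) : tot (q + r) = tot q + tot r :=
  Finsupp.sum_add_index' (fun _ => rfl) (fun _ _ _ => rfl)

lemma tot_smul (c : ℝ) (q : ℕ →₀ ℝ) : tot (c • q) = c * tot q := by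
  rw [tot, Finsupp.sum_smul_index' (fun _ => rfl), tot, Finsupp.mul_sum]
  rfl

lemma tot_single (n : ℕ) (c : ℝ) : tot (Finsupp.single n c) = c :=
  Finsupp.sum_single_index rfl

lemma tot_filter_add (p : ℕ → Prop) [DecidablePred p] (q : ℕ →₀ ℝ) :
    tot (q.filter p) + tot (q.filter fun n => ¬ p n) = tot q := by
  rw [← tot_add, Finsupp.filter_add_filter_not]

/-- `φ` has component bounds `q`. -/
structure Bd (φ : Fn) (q : ℕ →₀ ℝ) : Prop where
  nonneg : ∀ n, 0 ≤ q n
  sq : ∀ (n : ℕ) (s : Finset Node), (∀ v ∈ s, v.1 = n) → ∑ v ∈ s, φ v ^ 2 ≤ q n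
  preBd : ∀ v : Node, pre φ v ^ 2 ≤ q v.1

lemma Bd.tot_nonneg {φ : Fn} {q : ℕ →₀ ℝ} (h : Bd φ q) : 0 ≤ tot q :=
  Finset.sum_nonneg fun n _ => h.nonneg n

lemma Bd.le_tot {φ : Fn} {q : ℕ →₀ ℝ} (h : Bd φ q) (n : ℕ) : q n ≤ tot q := by
  by_cases hn : n ∈ q.support
  · exact Finset.single_le_sum (f := fun i => q i) (fun i _ => h.nonneg i) hn
  · rw [Finsupp.notMem_support_iff.1 hn]; exact h.tot_nonneg

lemma Bd.sum_sq_le {φ : Fn} {q : ℕ →₀ ℝ} (h : Bd φ q) (s : Finset Node) :
    ∑ v ∈ s, φ v ^ 2 ≤ tot q := by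
  calc ∑ v ∈ s, φ v ^ 2 = ∑ n ∈ s.image Prod.fst, ∑ v ∈ s with v.1 = n, φ v ^ 2 :=
        (Finset.sum_fiberwise_of_maps_to (fun v hv => mem_image_of_mem _ hv) _).symm
    _ ≤ ∑ n ∈ s.image Prod.fst, q n :=
        Finset.sum_le_sum fun n _ => h.sq n _ fun v hv => (mem_filter.1 hv).2
    _ ≤ ∑ n ∈ s.image Prod.fst ∪ q.support, q n :=
        Finset.sum_le_sum_of_subset_of_nonneg subset_union_left fun n _ _ => h.nonneg n
    _ = tot q := by
        refine (Finset.sum_subset subset_union_right ?_).symm
        exact fun n _ hn => Finsupp.notMem_support_iff.1 hn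

lemma Bd.smul {φ : Fn} {q : ℕ →₀ ℝ} (h : Bd φ q) (c : ℝ) : Bd (c • φ) (c ^ 2 • q) where
  nonneg n := by simpa using mul_nonneg (sq_nonneg c) (h.nonneg n)
  sq n s hs := by
    simp only [Finsupp.smul_apply, smul_eq_mul, mul_pow, ← Finset.mul_sum]
    exact mul_le_mul_of_nonneg_left (h.sq n s hs) (sq_nonneg c)
  preBd v := by
    simpa [pre_smul, mul_pow] using mul_le_mul_of_nonneg_left (h.preBd v) (sq_nonneg c)

lemma Bd.filter {φ : Fn} {q : ℕ →₀ ℝ} (h : Bd φ q) (p : ℕ → Prop) [DecidablePred p] :
    Bd (φ.filter fun u => p u.1) (q.filter p) where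
  nonneg n := by by_cases hp : p n <;> simp [Finsupp.filter_apply, hp, h.nonneg n]
  sq n s hs := by
    by_cases hp : p n
    · refine le_trans (le_of_eq (sum_congr rfl fun v hv => ?_))
        ((h.sq n s hs).trans (by simp [hp]))
      simp [hs v hv, hp]
    · refine le_of_eq (Eq.trans (sum_eq_zero fun v hv => ?_) (by simp [hp]))
      simp [hs v hv, hp]
  preBd v := by
    rw [pre_filter_fst]
    by_cases hp : p v.1 <;> simp [hp, h.preBd v]

lemma Bd.combo {φ u : Fn} {q r : ℕ →₀ ℝ} (h : Bd φ q) (h' : Bd u r) (a b : ℝ)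
    (hd : ∀ v, φ v = 0 ∨ u v = 0) (ho : ∀ v, a * b * (pre φ v * pre u v) ≤ 0) :
    Bd (a • φ + b • u) (a ^ 2 • q + b ^ 2 • r) where
  nonneg n := by
    have := h.nonneg n; have := h'.nonneg n
    simp only [Finsupp.add_apply, Finsupp.smul_apply, smul_eq_mul]
    positivity
  sq n s hs := by
    have : ∀ v, (a • φ + b • u) v ^ 2 = a ^ 2 * φ v ^ 2 + b ^ 2 * u v ^ 2 := fun v => by
      rcases hd v with e | e <;> simp [e] <;> ring
    rw [sum_congr rfl fun v _ => this v, sum_add_distrib, ← mul_sum, ← mul_sum]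
    simp only [Finsupp.add_apply, Finsupp.smul_apply, smul_eq_mul]
    exact add_le_add (mul_le_mul_of_nonneg_left (h.sq n s hs) (sq_nonneg a))
      (mul_le_mul_of_nonneg_left (h'.sq n s hs) (sq_nonneg b))
  preBd v := by
    have h1 := mul_le_mul_of_nonneg_left (h.preBd v) (sq_nonneg a)
    have h2 := mul_le_mul_of_nonneg_left (h'.preBd v) (sq_nonneg b)
    simp only [pre_add, pre_smul, Finsupp.add_apply, Finsupp.smul_apply, smul_eq_mul]
    nlinarith [ho v]

lemma Bd.single (u : Node) (c : ℝ) : Bd (Finsupp.single u c) (Finsupp.single u.1 (c ^ 2)) where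
  nonneg n := by rw [Finsupp.single_apply]; split <;> positivity
  sq n s hs := by
    by_cases hu : u ∈ s
    · rw [sum_eq_single u (fun v _ hv => by simp [Finsupp.single_eq_of_ne hv])
        (fun h => absurd hu h)]
      simp [hs u hu]
    · refine le_of_eq_of_le (sum_eq_zero fun v hv => ?_) ?_
      · have : v ≠ u := fun e => hu (e ▸ hv)
        simp [Finsupp.single_eq_of_ne this]
      · rw [Finsupp.single_apply]; split <;> positivity
  preBd v := by
    rw [pre_single, Finsupp.single_apply]
    split_ifs with h1 h2 h2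
    · exact le_rfl
    · exact absurd h1.1 h2
    · simpa using sq_nonneg c
    · simp

/-- A functional supported on one level of one component. -/
lemma Bd.level (φ : Fn) (n k : ℕ) (h : ∀ v, φ v ≠ 0 → v.1 = n ∧ v.2.length = k) :
    Bd φ (Finsupp.single n (∑ v ∈ φ.support, φ v ^ 2)) where
  nonneg m := by
    rw [Finsupp.single_apply]
    split
    · exact sum_nonneg fun w _ => sq_nonneg _
    · exact le_rfl
  sq m s hs := by
    by_cases hm : m = n
    · subst hm
      rw [Finsupp.single_eq_same]
      calc ∑ v ∈ s, φ v ^ 2 ≤ ∑ v ∈ s ∪ φ.support, φ v ^ 2 :=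
            sum_le_sum_of_subset_of_nonneg subset_union_left fun v _ _ => sq_nonneg _
        _ = _ := (sum_subset subset_union_right fun v _ hv => by
            simp [Finsupp.notMem_support_iff.1 hv]).symm
    · rw [Finsupp.single_eq_of_ne hm]
      refine le_of_eq (sum_eq_zero fun v hv => ?_)
      by_contra hne
      have : φ v ≠ 0 := fun e => hne (by simp [e])
      exact hm (hs v hv ▸ (h v this).1)
  preBd v := by
    by_cases hv : v.1 = n
    · rw [hv, Finsupp.single_eq_same]
      have : pre φ v = if k ≤ v.2.length then φ (v.1, v.2.take k) else 0 := by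
        have hz : ∀ i, i ≤ v.2.length → i ≠ k → φ (v.1, v.2.take i) = 0 := fun i hi hik => by
          by_contra hne
          have := (h _ hne).2
          simp only [List.length_take] at this
          omega
        unfold pre
        split_ifs with hk
        · rw [sum_eq_single k (fun i hi hik => hz i (by simpa [Nat.lt_succ_iff] using hi) hik)]
          exact fun hh => absurd (mem_range.2 (by omega)) hh
        · exact sum_eq_zero fun i hi => hz i (by simpa [Nat.lt_succ_iff] using hi)
            (by rw [mem_range] at hi; omega)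
      rw [this]
      split_ifs with hk
      · by_cases hz : φ (v.1, v.2.take k) = 0
        · rw [hz]; simpa using sum_nonneg fun w (_ : w ∈ φ.support) => sq_nonneg (φ w)
        · exact single_le_sum (f := fun w => φ w ^ 2) (fun w _ => sq_nonneg _)
            (Finsupp.mem_support_iff.2 hz)
      · simpa using sum_nonneg fun w (_ : w ∈ φ.support) => sq_nonneg (φ w)
    · have : pre φ v = 0 := sum_eq_zero fun i _ => by
        by_contra hne; exact hv (h _ hne).1
      rw [this, Finsupp.single_eq_of_ne hv]; simp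

/-- A set of nodes closed under prefixes. -/
def Closed (G : Finset Node) : Prop := ∀ n l j, (n, l ++ [j]) ∈ G → (n, l) ∈ G

/-- The prefix closure of a finite set of nodes. -/
def closure' (S : Finset Node) : Finset Node :=
  S.biUnion fun v => (range (v.2.length + 1)).image fun i => (v.1, v.2.take i)

lemma subset_closure' (S : Finset Node) : S ⊆ closure' S := fun v hv =>
  mem_biUnion.2 ⟨v, hv, mem_image.2 ⟨v.2.length, by simp, by simp⟩⟩

lemma closed_closure' (S : Finset Node) : Closed (closure' S) := by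
  intro n l j h
  obtain ⟨v, hv, hi⟩ := mem_biUnion.1 h
  obtain ⟨i, hi, he⟩ := mem_image.1 hi
  obtain ⟨rfl, he⟩ := Prod.ext_iff.1 he
  refine mem_biUnion.2 ⟨v, hv, mem_image.2 ⟨l.length, ?_, ?_⟩⟩
  · have := congrArg List.length he
    simp only [List.length_take, List.length_append, List.length_singleton] at this
    exact mem_range.2 (by omega)
  · have he' : v.2.take i = l ++ [j] := he
    have hp : l <+: v.2 :=
      (List.prefix_append l [j]).trans (he' ▸ List.take_prefix i v.2)
    rw [Prod.mk.injEq]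
    exact ⟨rfl, (List.prefix_iff_eq_take.1 hp).symm⟩

/-- Removing a prefix closed set and halving keeps the bounds. -/
lemma Bd.halfOff {ψ : Fn} {q : ℕ →₀ ℝ} (h : Bd ψ q) {G : Finset Node} (hG : Closed G) :
    Bd ((1 / 2 : ℝ) • ψ.filter fun v => v ∉ G) q where
  nonneg := h.nonneg
  sq n s hs := le_trans (sum_le_sum fun v _ => by
    by_cases hv : v ∈ G
    · simpa [hv] using sq_nonneg (ψ v)
    · simp [hv]; nlinarith [sq_nonneg (ψ v)]) (h.sq n s hs)
  preBd v := by
    have hsplit : pre (ψ.filter fun v => v ∉ G) v = pre ψ v - pre (ψ.filter fun v => v ∈ G) v := by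
      have := congrArg (fun f => pre f v) (Finsupp.filter_add_filter_not ψ fun v => v ∈ G)
      simp only [pre_add] at this
      linarith
    have hGin : ∀ w : Node, w ∈ G → pre (ψ.filter fun v => v ∈ G) w = pre ψ w := fun w => by
      induction w using node_induction with
      | h0 n => intro hw; simp [pre_nil, hw]
      | h1 n l j ih => intro hw; simp [pre_concat, ih (hG n l j hw), hw]
    have hG2 : ∀ w : Node, pre (ψ.filter fun v => v ∈ G) w ^ 2 ≤ q w.1 := fun w => by
      induction w using node_induction with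
      | h0 n =>
        by_cases hw : (n, ([] : List ℕ)) ∈ G
        · rw [hGin _ hw]; exact h.preBd _
        · simpa [pre_nil, hw] using h.nonneg n
      | h1 n l j ih =>
        by_cases hw : (n, l ++ [j]) ∈ G
        · rw [hGin _ hw]; exact h.preBd _
        · simpa [pre_concat, hw] using ih
    rw [pre_smul, hsplit]
    nlinarith [h.preBd v, hG2 v, sq_nonneg (pre ψ v + pre (ψ.filter fun v => v ∈ G) v)]

private lemma min_incr (a d : ℝ) :
    |min (a + d) 0 - min a 0| ≤ |d| ∧ |d - (min (a + d) 0 - min a 0)| ≤ |d| := by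
  constructor <;> rw [abs_le] <;> constructor <;>
    rcases le_total (a + d) 0 with h | h <;> rcases le_total a 0 with h' | h' <;>
      simp [h, h'] <;> linarith [le_abs_self d, neg_abs_le d]

private lemma max_incr (a d : ℝ) :
    |max (a + d) 0 - max a 0| ≤ |d| ∧ |d - (max (a + d) 0 - max a 0)| ≤ |d| := by
  constructor <;> rw [abs_le] <;> constructor <;>
    rcases le_total (a + d) 0 with h | h <;> rcases le_total a 0 with h' | h' <;>
      simp [h, h'] <;> linarith [le_abs_self d, neg_abs_le d]

/-- Splitting a functional living off `G` by the sign of the path sums of `φ`. -/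
lemma exists_split {φ h : Fn} {q : ℕ →₀ ℝ} {G : Finset Node} (hG : Closed G)
    (hφ : ∀ v, v ∉ G → φ v = 0) (hh : ∀ v, v ∈ G → h v = 0) (hb : Bd h q) :
    ∃ u w : Fn, u + w = h ∧ Bd u q ∧ Bd w q ∧ (∀ v, h v = 0 → u v = 0) ∧
      (∀ v, h v = 0 → w v = 0) ∧ (∀ v, pre φ v * pre u v ≤ 0) ∧
      (∀ v, 0 ≤ pre φ v * pre w v) := by
  classical
  set R : Node → ℝ := fun v => if 0 ≤ pre φ v then min (pre h v) 0 else max (pre h v) 0 with hR
  set f : Node → ℝ := fun v => if v.2 = [] then R v else R v - R (v.1, v.2.dropLast) with hf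
  have hin : ∀ v, v ∈ G → pre h v = 0 := fun v => by
    induction v using node_induction with
    | h0 n => intro hv; simp [pre_nil, hh _ hv]
    | h1 n l j ih => intro hv; simp [pre_concat, ih (hG n l j hv), hh _ hv]
  have hbound : ∀ v, |f v| ≤ |h v| ∧ |h v - f v| ≤ |h v| := fun v => by
    induction v using node_induction with
    | h0 n =>
      simp only [hf, hR, if_true, pre_nil]
      split
      · simpa using min_incr 0 (h (n, []))
      · simpa using max_incr 0 (h (n, []))
    | h1 n l j _ =>
      simp only [hf, List.append_ne_nil_of_right_ne_nil l (List.cons_ne_nil j []), if_false,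
        List.dropLast_concat]
      by_cases hv : (n, l ++ [j]) ∈ G
      · simp [hR, hin _ hv, hin _ (hG n l j hv), hh _ hv]
      · have : pre φ (n, l ++ [j]) = pre φ (n, l) := by simp [pre_concat, hφ _ hv]
        simp only [hR, this, pre_concat h]
        split
        · exact min_incr _ _
        · exact max_incr _ _
  have hsupp : ∀ v, f v ≠ 0 → v ∈ h.support := fun v hv => by
    rw [Finsupp.mem_support_iff]; intro e
    exact hv (abs_eq_zero.1 (le_antisymm ((hbound v).1.trans (by simp [e])) (abs_nonneg _)))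
  set u : Fn := Finsupp.onFinset h.support f hsupp with hu
  have hpre : ∀ v, pre u v = R v := fun v => by
    induction v using node_induction with
    | h0 n => simp [pre_nil, hu, hf]
    | h1 n l j ih => rw [pre_concat, ih]; simp [hu, hf]
  have hRle : ∀ v, R v ^ 2 ≤ pre h v ^ 2 ∧ (pre h v - R v) ^ 2 ≤ pre h v ^ 2 ∧
      pre φ v * R v ≤ 0 ∧ 0 ≤ pre φ v * (pre h v - R v) := fun v => by
    simp only [hR]
    rcases le_total (pre h v) 0 with h1 | h1 <;> split <;> simp [h1, sq_nonneg] <;>
      nlinarith
  refine ⟨u, h - u, add_sub_cancel u h, ⟨hb.nonneg, ?_, ?_⟩, ⟨hb.nonneg, ?_, ?_⟩, ?_, ?_, ?_, ?_⟩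
  · intro n s hs
    exact (sum_le_sum fun v _ => sq_le_sq.2 (hbound v).1).trans (hb.sq n s hs)
  · intro v; rw [hpre]; exact (hRle v).1.trans (hb.preBd v)
  · intro n s hs
    exact (sum_le_sum fun v _ => sq_le_sq.2 (by simpa [hu] using (hbound v).2)).trans (hb.sq n s hs)
  · intro v; rw [pre_sub, hpre]; exact (hRle v).2.1.trans (hb.preBd v)
  · intro v hv
    have := (hbound v).1; rw [hv, abs_zero] at this
    simpa [hu] using this
  · intro v hv
    have := (hbound v).2; rw [hv, abs_zero] at this
    simpa [hu, hv] using this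
  · intro v; rw [hpre]; exact (hRle v).2.2.1
  · intro v; rw [pre_sub, hpre]; exact (hRle v).2.2.2

end Vale.Agent.P069
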