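import Mathlib.Analysis.Normed.Module.Basic
import Mathlib.Analysis.Seminorm
import Mathlib.LinearAlgebra.FiniteDimensional.Basic

/-! Definitions used in the statement for P069: asymptotic moduli of a norm. -/

noncomputable section

namespace Vale.Agent.P069

variable {X : Type*} [NormedAddCommGroup X] [NormedSpace ℝ X]

/-- Closed subspaces of finite codimension. -/
def Cof (X : Type*) [NormedAddCommGroup X] [NormedSpace ℝ X] : Type _ :=
  {F : Submodule ℝ X // IsClosed (F : Set X) ∧ FiniteDimensional ℝ (X ⧸ F)}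

/-- The modulus of asymptotic uniform convexity of `N` at `t`. -/
def deltaBar (N : Seminorm ℝ X) (t : ℝ) : ℝ :=
  ⨅ x : {x : X // N x = 1}, ⨆ F : Cof X, ⨅ y : {y : X // y ∈ F.1 ∧ N y = 1},
    (N (x.1 + t • y.1) - 1)

/-- The modulus of asymptotic midpoint uniform convexity of `N` at `t`. -/
def midMod (N : Seminorm ℝ X) (t : ℝ) : ℝ :=
  ⨅ x : {x : X // N x = 1}, ⨆ F : Cof X, ⨅ y : {y : X // y ∈ F.1 ∧ N y = 1},
    (max (N (x.1 + t • y.1)) (N (x.1 - t • y.1)) - 1)

/-- `N` is a norm equivalent to the norm of `X`. -/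
def IsEquivNorm (N : Seminorm ℝ X) : Prop :=
  ∃ a b : ℝ, 0 < a ∧ ∀ x : X, a * ‖x‖ ≤ N x ∧ N x ≤ b * ‖x‖

end Vale.Agent.P069
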