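import Vale.Agent.P069.Space

/-! Component projections and the exact two-block estimates; reflexivity. -/

noncomputable section

namespace Vale.Agent.P069

open Finset Filter
open scoped ENNReal Topology

/-- Coordinates of the components below `N`, as a function on the forest. -/
def cut (N : ℕ) (x : X) (v : RNode) : ℝ := if v.1.1 < N then coord v.1 x else 0

lemma sum_level_sq_le (x : X) (s : Finset Node) (n k : ℕ)
    (hs : ∀ v ∈ s, v.1 = n ∧ v.2.length = k) : ∑ v ∈ s, coord v x ^ 2 ≤ ‖x‖ ^ 2 := by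
  classical
  set φ : Fn := Finsupp.onFinset s (fun v => if v ∈ s then coord v x else 0)
    (fun v hv => by by_contra h; exact hv (if_neg h)) with hφ
  have hval : ∀ v, φ v = if v ∈ s then coord v x else 0 := fun v => rfl
  have hsub : φ.support ⊆ s := Finsupp.support_onFinset_subset
  have hb := Bd.level φ n k fun v hv => hs v (hsub (Finsupp.mem_support_iff.2 hv))
  have hS : ∑ v ∈ φ.support, φ v ^ 2 = ∑ v ∈ s, coord v x ^ 2 := by
    rw [sum_subset hsub fun v _ hv => by simp [Finsupp.notMem_support_iff.1 hv]]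
    exact sum_congr rfl fun v hv => by simp [hval, hv]
  have hp : pair (fun v => coord v x) φ = ∑ v ∈ s, coord v x ^ 2 := by
    rw [pair_apply, sum_subset hsub fun v _ hv => by simp [Finsupp.notMem_support_iff.1 hv]]
    exact sum_congr rfl fun v hv => by simp [hval, hv, sq]
  have h0 : (0 : ℝ) ≤ ∑ v ∈ s, coord v x ^ 2 := sum_nonneg fun _ _ => sq_nonneg _
  have := abs_pair_le hb (Real.sqrt_nonneg (∑ v ∈ s, coord v x ^ 2))
    (by rw [tot_single, Real.sq_sqrt h0, hS]) x
  rw [hp, abs_of_nonneg h0] at this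
  nlinarith [Real.sq_sqrt h0, sq_nonneg (Real.sqrt (∑ v ∈ s, coord v x ^ 2) - ‖x‖)]

lemma sum_cut_sq_le (N : ℕ) (x : X) (s : Finset RNode) :
    ∑ v ∈ s, cut N x v ^ 2 ≤ (N * N : ℕ) * ‖x‖ ^ 2 := by
  classical
  set s' := (s.filter fun v => v.1.1 < N).image Subtype.val with hs'
  have h1 : ∑ v ∈ s, cut N x v ^ 2 = ∑ v ∈ s', coord v x ^ 2 := by
    rw [hs', sum_image Subtype.val_injective.injOn, sum_filter]
    exact sum_congr rfl fun v _ => by unfold cut; split <;> simp
  rw [h1, ← sum_fiberwise_of_maps_to (g := fun v : Node => (v.1, v.2.length))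
    (t := range N ×ˢ range N) (fun v hv => by
      obtain ⟨w, hw, rfl⟩ := mem_image.1 hv
      have h2 := (mem_filter.1 hw).2
      have h3 := w.2
      simp only [mem_product, mem_range]
      omega)]
  refine (sum_le_sum fun i _ => sum_level_sq_le x _ i.1 i.2 fun v hv => ?_).trans (le_of_eq ?_)
  · have := (mem_filter.1 hv).2
    exact ⟨congrArg Prod.fst this, congrArg Prod.snd this⟩
  · simp

lemma memH (N : ℕ) (x : X) : Memℓp (cut N x) 2 :=
  memℓp_gen' (C := (N * N : ℕ) * ‖x‖ ^ 2) fun s => by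
    simpa [Real.norm_eq_abs] using sum_cut_sq_le N x s

/-- Coordinates of the components below `N`, as a linear map into the Hilbert space. -/
def RLin (N : ℕ) : X →ₗ[ℝ] H where
  toFun x := ⟨cut N x, memH N x⟩
  map_add' x y := by
    ext v
    change cut N (x + y) v = cut N x v + cut N y v
    unfold cut; split <;> simp
  map_smul' c x := by
    ext v
    change cut N (c • x) v = c * cut N x v
    unfold cut; split <;> simp

/-- Coordinates of the components below `N`, as a bounded map into the Hilbert space. -/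
def R (N : ℕ) : X →L[ℝ] H := (RLin N).mkContinuous (Real.sqrt (N * N : ℕ)) fun x => by
  refine lp.norm_le_of_forall_sum_le (by simp) (by positivity) fun s => ?_
  simp only [ENNReal.toReal_ofNat, Real.rpow_two, Real.norm_eq_abs, sq_abs, mul_pow]
  rw [Real.sq_sqrt (by positivity)]
  exact sum_cut_sq_le N x s

/-- The projection onto the components below `N`. -/
def P (N : ℕ) : X →L[ℝ] X := Jx.comp (R N)

lemma coord_P (N : ℕ) (x : X) (v : Node) :
    coord v (P N x) = if v.1 < N then coord v x else 0 := by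
  rw [P, ContinuousLinearMap.comp_apply, coord_Jx, hv]
  by_cases hr : v.2.length ≤ v.1
  · rw [dif_pos hr]; rfl
  · rw [dif_neg hr, coord_zero_of_not_real hr]; simp

lemma P_P (M N : ℕ) (h : M ≤ N) (x : X) : P M (P N x) = P M x := by
  refine ext_coord fun v => ?_
  simp only [coord_P]
  split_ifs <;> first | rfl | omega

lemma P_P' (M N : ℕ) (h : N ≤ M) (x : X) : P M (P N x) = P N x := by
  refine ext_coord fun v => ?_
  simp only [coord_P]
  split_ifs <;> first | rfl | omega

lemma pair_P (N : ℕ) (x : X) (φ : Fn) :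
    pair (fun v => coord v (P N x)) φ
      = pair (fun v => coord v x) (φ.filter fun v => v.1 < N) := by
  classical
  rw [pair_apply, pair_apply, Finsupp.support_filter, sum_filter]
  refine sum_congr rfl fun v _ => ?_
  rw [coord_P]
  split <;> simp [*]

lemma pair_sub_P (N : ℕ) (x : X) (φ : Fn) :
    pair (fun v => coord v (x - P N x)) φ
      = pair (fun v => coord v x) (φ.filter fun v => ¬ v.1 < N) := by
  classical
  rw [pair_apply, pair_apply, Finsupp.support_filter, sum_filter]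
  refine sum_congr rfl fun v _ => ?_
  rw [map_sub, coord_P, Finsupp.filter_apply]
  split <;> simp [*]

lemma le_of_sq_le_mul {T C : ℝ} (hC : 0 ≤ C) (h : T ≤ Real.sqrt T * C) : T ≤ C ^ 2 := by
  rcases le_or_gt T 0 with hT | hT
  · exact hT.trans (sq_nonneg C)
  · nlinarith [Real.sq_sqrt hT.le, sq_nonneg (Real.sqrt T - C)]

lemma P_lower (N : ℕ) (z : X) : ‖P N z‖ ^ 2 + ‖z - P N z‖ ^ 2 ≤ ‖z‖ ^ 2 := by
  set A := ‖P N z‖
  set B := ‖z - P N z‖
  have hA : 0 ≤ A := norm_nonneg _
  have hB : 0 ≤ B := norm_nonneg _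
  refine le_of_sq_le_mul (norm_nonneg _) (le_of_forall_pos_le_add fun ε hε => ?_)
  have hAB : 0 < A + B + 1 := by linarith
  obtain ⟨φ₁, h₁⟩ := exists_ev_gt (P N z) (show 0 < ε / (A + B + 1) by positivity)
  obtain ⟨φ₂, h₂⟩ := exists_ev_gt (z - P N z) (show 0 < ε / (A + B + 1) by positivity)
  obtain ⟨q₁, hq₁, ht₁⟩ := φ₁.2
  obtain ⟨q₂, hq₂, ht₂⟩ := φ₂.2
  have hb := (hq₁.filter fun n => n < N).combo (hq₂.filter fun n => ¬ n < N) A B
    (fun v => by by_cases h : v.1 < N <;> simp [h])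
    (fun v => by
      rw [pre_filter_fst (fun n => n < N), pre_filter_fst (fun n => ¬ n < N)]
      by_cases h : v.1 < N <;> simp [h])
  have hf₁ := tot_filter_add (fun n => n < N) q₁
  have hf₂ := tot_filter_add (fun n => n < N) q₂
  have hn₁ := (hq₁.filter fun n => ¬ n < N).tot_nonneg
  have hn₂ := (hq₂.filter fun n => n < N).tot_nonneg
  have key := abs_pair_le hb (Real.sqrt_nonneg (A ^ 2 + B ^ 2)) (by
    rw [Real.sq_sqrt (by positivity), tot_add, tot_smul, tot_smul]
    nlinarith [sq_nonneg A, sq_nonneg B]) z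
  rw [map_add, map_smul, map_smul, smul_eq_mul, smul_eq_mul] at key
  rw [ev_eq, pair_P] at h₁
  rw [ev_eq, pair_sub_P] at h₂
  have k := (le_abs_self _).trans key
  have hm₁ := mul_le_mul_of_nonneg_left h₁.le hA
  have hm₂ := mul_le_mul_of_nonneg_left h₂.le hB
  have he : (A + B) * (ε / (A + B + 1)) ≤ ε := by
    rw [← mul_div_assoc, div_le_iff₀ hAB]; nlinarith
  nlinarith

lemma norm_P_le (N : ℕ) (z : X) : ‖P N z‖ ≤ ‖z‖ := by
  nlinarith [P_lower N z, norm_nonneg (z - P N z), norm_nonneg z, norm_nonneg (P N z)]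

lemma norm_sub_P_le (N : ℕ) (z : X) : ‖z - P N z‖ ≤ ‖z‖ := by
  nlinarith [P_lower N z, norm_nonneg (z - P N z), norm_nonneg z, norm_nonneg (P N z)]

lemma P_upper (N : ℕ) (a b : X) :
    ‖P N a + (b - P N b)‖ ≤ Real.sqrt (‖P N a‖ ^ 2 + ‖b - P N b‖ ^ 2) := by
  refine norm_le_of_ev (Real.sqrt_nonneg _) fun φ => ?_
  obtain ⟨q, hq, ht⟩ := φ.2
  rw [map_add, ev_eq, ev_eq, pair_P, pair_sub_P]
  have e₁ : pair (fun v => coord v a) (φ.1.filter fun v => v.1 < N)
      = pair (fun v => coord v (P N a)) (φ.1.filter fun v => v.1 < N) := by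
    simp only [pair_apply]
    refine sum_congr rfl fun v hv => ?_
    rw [Finsupp.support_filter, mem_filter] at hv
    rw [coord_P, if_pos hv.2]
  have e₂ : pair (fun v => coord v b) (φ.1.filter fun v => ¬ v.1 < N)
      = pair (fun v => coord v (b - P N b)) (φ.1.filter fun v => ¬ v.1 < N) := by
    simp only [pair_apply]
    refine sum_congr rfl fun v hv => ?_
    rw [Finsupp.support_filter, mem_filter] at hv
    rw [map_sub, coord_P, if_neg hv.2, sub_zero]
  set t₁ := tot (q.filter fun n => n < N)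
  set t₂ := tot (q.filter fun n => ¬ n < N)
  have hn₁ : 0 ≤ t₁ := (hq.filter fun n => n < N).tot_nonneg
  have hn₂ : 0 ≤ t₂ := (hq.filter fun n => ¬ n < N).tot_nonneg
  have hsum : t₁ + t₂ ≤ 1 := (tot_filter_add _ q).trans_le ht
  have k₁ := abs_pair_le (hq.filter fun n => n < N) (Real.sqrt_nonneg t₁)
    (by rw [Real.sq_sqrt hn₁]) (P N a)
  have k₂ := abs_pair_le (hq.filter fun n => ¬ n < N) (Real.sqrt_nonneg t₂)
    (by rw [Real.sq_sqrt hn₂]) (b - P N b)
  rw [← e₁] at k₁; rw [← e₂] at k₂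
  refine (abs_add_le _ _).trans ((add_le_add k₁ k₂).trans (Real.le_sqrt_of_sq_le ?_))
  nlinarith [Real.sq_sqrt hn₁, Real.sq_sqrt hn₂,
    sq_nonneg (Real.sqrt t₁ * ‖b - P N b‖ - Real.sqrt t₂ * ‖P N a‖),
    sq_nonneg ‖P N a‖, sq_nonneg ‖b - P N b‖]

lemma exists_unit_gt (g : X →L[ℝ] ℝ) {η : ℝ} (hη : 0 < η) :
    ∃ a : X, ‖a‖ ≤ 1 ∧ ‖g‖ - η < g a := by
  by_contra hne
  push Not at hne
  have h0 : 0 ≤ ‖g‖ - η := by simpa using hne 0 (by simp)
  have : ‖g‖ ≤ ‖g‖ - η := by
    refine g.opNorm_le_of_unit_norm h0 fun a ha => abs_le.2 ⟨?_, hne a ha.le⟩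
    have := hne (-a) (by simp [ha])
    rw [map_neg] at this
    linarith
  linarith

lemma dual_lower (g : X →L[ℝ] ℝ) (N : ℕ) :
    ‖g.comp (P N)‖ ^ 2 + ‖g - g.comp (P N)‖ ^ 2 ≤ ‖g‖ ^ 2 := by
  set A := ‖g.comp (P N)‖
  set B := ‖g - g.comp (P N)‖
  have hA : 0 ≤ A := ContinuousLinearMap.opNorm_nonneg _
  have hB : 0 ≤ B := ContinuousLinearMap.opNorm_nonneg _
  refine le_of_sq_le_mul (norm_nonneg _) (le_of_forall_pos_le_add fun ε hε => ?_)
  have hAB : 0 < A + B + 1 := by linarith
  obtain ⟨a, ha, h₁⟩ := exists_unit_gt (g.comp (P N)) (show 0 < ε / (A + B + 1) by positivity)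
  obtain ⟨b, hb, h₂⟩ := exists_unit_gt (g - g.comp (P N)) (show 0 < ε / (A + B + 1) by positivity)
  have key : ‖P N (A • a) + (B • b - P N (B • b))‖ ≤ Real.sqrt (A ^ 2 + B ^ 2) := by
    refine (P_upper N _ _).trans (Real.sqrt_le_sqrt ?_)
    rw [map_smul, map_smul, ← smul_sub, norm_smul, norm_smul, Real.norm_of_nonneg hA,
      Real.norm_of_nonneg hB]
    have := (norm_P_le N a).trans ha
    have := (norm_sub_P_le N b).trans hb
    exact add_le_add (pow_le_pow_left₀ (by positivity) (mul_le_of_le_one_right hA (by linarith)) 2)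
      (pow_le_pow_left₀ (by positivity) (mul_le_of_le_one_right hB (by linarith)) 2)
  have k := (le_abs_self _).trans ((g.le_opNorm _).trans
    (mul_le_mul_of_nonneg_left key (norm_nonneg g)))
  simp only [map_add, map_sub, map_smul, smul_eq_mul, ContinuousLinearMap.coe_comp',
    Function.comp_apply, ContinuousLinearMap.coe_sub', Pi.sub_apply] at k h₁ h₂
  have hm₁ := mul_le_mul_of_nonneg_left h₁.le hA
  have hm₂ := mul_le_mul_of_nonneg_left h₂.le hB
  have he : (A + B) * (ε / (A + B + 1)) ≤ ε := by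
    rw [← mul_div_assoc, div_le_iff₀ hAB]; nlinarith
  nlinarith

/-- A bounded sequence with the Pythagorean lower bound is Cauchy. -/
lemma cauchy_of_pythag {E : Type*} [SeminormedAddCommGroup E] (z : ℕ → E) (C : ℝ)
    (hC : ∀ N, ‖z N‖ ≤ C) (h : ∀ N M, N ≤ M → ‖z N‖ ^ 2 + ‖z M - z N‖ ^ 2 ≤ ‖z M‖ ^ 2) :
    CauchySeq z := by
  have hmono : Monotone fun N => ‖z N‖ ^ 2 := fun N M hNM => by
    nlinarith [h N M hNM, sq_nonneg ‖z M - z N‖]
  have hbdd : BddAbove (Set.range fun N => ‖z N‖ ^ 2) :=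
    ⟨C ^ 2, by rintro _ ⟨N, rfl⟩; exact pow_le_pow_left₀ (norm_nonneg _) (hC N) 2⟩
  have hl := (tendsto_atTop_ciSup hmono hbdd).cauchySeq
  rw [Metric.cauchySeq_iff'] at hl ⊢
  intro ε hε
  obtain ⟨N, hN⟩ := hl (ε ^ 2) (by positivity)
  refine ⟨N, fun n hn => ?_⟩
  have h1 := hN n hn
  rw [Real.dist_eq] at h1
  rw [dist_eq_norm]
  nlinarith [h N n hn, le_abs_self (‖z n‖ ^ 2 - ‖z N‖ ^ 2), norm_nonneg (z n - z N)]

lemma tendsto_comp_P (f : X →L[ℝ] ℝ) :
    Tendsto (fun N => f.comp (P N)) atTop (𝓝 f) := by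
  have hc : CauchySeq fun N => f.comp (P N) := by
    refine cauchy_of_pythag _ ‖f‖ (fun N => ?_) fun N M hNM => ?_
    · refine ContinuousLinearMap.opNorm_le_bound _ (norm_nonneg _) fun x => ?_
      exact (f.le_opNorm _).trans (mul_le_mul_of_nonneg_left (norm_P_le N x) (norm_nonneg _))
    · have e : (f.comp (P M)).comp (P N) = f.comp (P N) :=
        ContinuousLinearMap.ext fun x => congrArg f (P_P' M N hNM x)
      simpa [e] using dual_lower (f.comp (P M)) N
  obtain ⟨g, hg⟩ := cauchySeq_tendsto_of_complete hc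
  have hp : ∀ x : X, Tendsto (fun N => f (P N x)) atTop (𝓝 (g x)) := fun x =>
    ((ContinuousLinearMap.apply ℝ ℝ x).continuous.tendsto g).comp hg
  have he : ∀ v : RNode, g (e v) = f (e v) := fun v => by
    refine tendsto_nhds_unique (hp _) (tendsto_atTop_of_eventually_const (i₀ := v.1.1 + 1) ?_)
    intro N hN
    refine congrArg f (ext_coord fun w => ?_)
    rw [coord_P]
    split
    · rfl
    · next hw =>
      rw [coord_e, if_neg (fun e' : w = v.1 => by subst e'; omega)]
  have : g.comp Jx = f.comp Jx := by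
    refine lp.ext_continuousLinearMap (p := 2) ENNReal.ofNat_ne_top fun v => ?_
    refine ContinuousLinearMap.ext_ring ?_
    exact he v
  have : g = f := ContinuousLinearMap.ext fun x =>
    denseRange_Jx.induction_on x (isClosed_eq g.continuous f.continuous) fun h =>
      DFunLike.congr_fun this h
  exact this ▸ hg

set_option maxSynthPendingDepth 3 in
lemma reflexive : Function.Surjective (NormedSpace.inclusionInDoubleDual ℝ X) := by
  intro Φ
  have hx : ∀ N, ∃ x : X, ∀ f : X →L[ℝ] ℝ, f x = Φ (f.comp (P N)) := by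
    intro N
    let L : StrongDual ℝ H →L[ℝ] StrongDual ℝ X :=
      (ContinuousLinearMap.compL ℝ (↥Xsub) H ℝ).flip (R N)
    let T : H →L[ℝ] ℝ :=
      (Φ.comp L).comp (InnerProductSpace.toDual ℝ H).toContinuousLinearEquiv.toContinuousLinearMap
    refine ⟨Jx ((InnerProductSpace.toDual ℝ H).symm T), fun f => ?_⟩
    set h := (InnerProductSpace.toDual ℝ H).symm (f.comp Jx)
    have h1 : ∀ k, (f.comp Jx) k = inner ℝ h k := fun k =>
      (InnerProductSpace.toDual_symm_apply).symm
    rw [← ContinuousLinearMap.comp_apply f Jx, h1, real_inner_comm,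
      InnerProductSpace.toDual_symm_apply]
    change Φ (L (InnerProductSpace.toDual ℝ H h)) = _
    rw [LinearIsometryEquiv.apply_symm_apply]
    rfl
  choose x hx using hx
  have hb : ∀ N, ‖x N‖ ≤ ‖Φ‖ := fun N => by
    refine NormedSpace.norm_le_dual_bound ℝ _ Φ.opNorm_nonneg fun f => ?_
    rw [hx]
    refine (Φ.le_opNorm _).trans (mul_le_mul_of_nonneg_left ?_ Φ.opNorm_nonneg)
    refine ContinuousLinearMap.opNorm_le_bound _ (norm_nonneg _) fun y => ?_
    exact (f.le_opNorm _).trans (mul_le_mul_of_nonneg_left (norm_P_le N y) (norm_nonneg _))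
  have hP : ∀ N M, N ≤ M → P N (x M) = x N := fun N M hNM => by
    refine (NormedSpace.eq_iff_forall_dual_eq ℝ).2 fun f => ?_
    rw [hx N f, show f (P N (x M)) = (f.comp (P N)) (x M) from rfl, hx M]
    congr 1
    exact ContinuousLinearMap.ext fun y => congrArg f (P_P N M hNM y)
  have hc : CauchySeq x := cauchy_of_pythag x ‖Φ‖ hb fun N M hNM => by
    simpa [hP N M hNM] using P_lower N (x M)
  obtain ⟨z, hz⟩ := cauchySeq_tendsto_of_complete hc
  refine ⟨z, ContinuousLinearMap.ext fun f => ?_⟩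
  rw [NormedSpace.dual_def]
  refine tendsto_nhds_unique ((f.continuous.tendsto z).comp hz) ?_
  refine ((Φ.continuous.tendsto f).comp (tendsto_comp_P f)).congr fun N => ?_
  simp [hx]

end Vale.Agent.P069
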