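import Vale.Agent.P069.Defs
import Vale.Agent.P069.Proj
import Mathlib.Analysis.Normed.Group.Quotient
import Mathlib.Analysis.Normed.Module.FiniteDimension

/-! The norm of `X` is AMUC; no equivalent norm is AUC. -/

noncomputable section

namespace Vale.Agent.P069

open Finset Filter
open scoped ENNReal Topology

lemma not_finiteDimensional : ¬ FiniteDimensional ℝ X := by
  intro hfin
  have hli : LinearIndependent ℝ (fun n : ℕ => e ⟨(n, []), Nat.zero_le n⟩) := by
    rw [linearIndependent_iff']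
    intro s c hc i hi
    have := congrArg (coord (i, [])) hc
    simp only [map_sum, map_smul, coord_e, map_zero, Prod.mk.injEq, and_true, smul_eq_mul,
      mul_ite, mul_one, mul_zero] at this
    simpa [hi] using this
  exact Set.infinite_univ (α := ℕ) (Set.finite_univ_iff.2 hli.finite)

section Generic

variable {Y : Type*} [NormedAddCommGroup Y] [NormedSpace ℝ Y]

lemma cof_nonempty : Nonempty (Cof Y) := by
  refine ⟨⟨⊤, isClosed_univ, ?_⟩⟩
  infer_instance

lemma exists_unit {N : Seminorm ℝ Y} (hN : IsEquivNorm N) (hY : ¬ FiniteDimensional ℝ Y)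
    (F : Cof Y) : Nonempty {y : Y // y ∈ F.1 ∧ N y = 1} := by
  have hF : F.1 ≠ ⊥ := fun h => by
    have := F.2.2
    rw [h] at this
    exact hY (Module.Finite.equiv (Submodule.quotEquivOfEqBot (⊥ : Submodule ℝ Y) rfl))
  obtain ⟨z, hz, hz0⟩ := (Submodule.ne_bot_iff _).1 hF
  obtain ⟨a, b, ha, hab⟩ := hN
  have hpos : 0 < N z := lt_of_lt_of_le (mul_pos ha (norm_pos_iff.2 hz0)) (hab z).1
  refine ⟨⟨(N z)⁻¹ • z, F.1.smul_mem _ hz, ?_⟩⟩
  rw [map_smul_eq_mul, Real.norm_eq_abs, abs_inv, abs_of_pos hpos, inv_mul_cancel₀ hpos.ne']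

lemma convex_growth (N : Seminorm ℝ Y) (x y : Y) (hx : N x = 1) {c t l : ℝ} (hc : 0 ≤ c)
    (ht : 0 < t) (htl : t ≤ l) (h : 1 + c ≤ N (x + t • y)) : 1 + c ≤ N (x + l • y) := by
  have hl : 0 < l := ht.trans_le htl
  have hle : t / l ≤ 1 := (div_le_one hl).2 htl
  have heq : x + t • y = (1 - t / l) • x + (t / l) • (x + l • y) := by
    rw [smul_add, smul_smul, div_mul_cancel₀ _ hl.ne', sub_smul, one_smul]; abel
  have h2 := map_add_le_add N ((1 - t / l) • x) ((t / l) • (x + l • y))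
  rw [← heq, map_smul_eq_mul, map_smul_eq_mul, Real.norm_of_nonneg (by linarith),
    Real.norm_of_nonneg (by positivity), hx] at h2
  by_contra hlt
  push Not at hlt
  have hpos : 0 < t / l := by positivity
  nlinarith [mul_lt_mul_of_pos_left hlt hpos]

lemma deltaBar_spec {N : Seminorm ℝ Y} (hN : IsEquivNorm N) (hY : ¬ FiniteDimensional ℝ Y) {t : ℝ}
    (hδ : 0 < deltaBar N t) :
    ∀ x : Y, N x = 1 → ∃ F : Cof Y, ∀ y, y ∈ F.1 → N y = 1 →
      1 + deltaBar N t / 2 ≤ N (x + t • y) := by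
  intro x hx
  have hFne : Nonempty (Cof Y) := cof_nonempty
  have hb : ∀ (x : Y) (F : Cof Y), BddBelow (Set.range fun y : {y : Y // y ∈ F.1 ∧ N y = 1} =>
      N (x + t • y.1) - 1) := fun x F =>
    ⟨-1, by rintro _ ⟨y, rfl⟩; have := apply_nonneg N (x + t • y.1); linarith⟩
  have hup : ∀ (x : Y), N x = 1 → BddAbove (Set.range fun F : Cof Y =>
      ⨅ y : {y : Y // y ∈ F.1 ∧ N y = 1}, (N (x + t • y.1) - 1)) := fun x hx => ⟨|t|, by
    rintro _ ⟨F, rfl⟩
    obtain ⟨y⟩ := exists_unit hN hY F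
    refine (ciInf_le (hb x F) y).trans ?_
    have := map_add_le_add N x (t • y.1)
    rw [map_smul_eq_mul, y.2.2, hx, Real.norm_eq_abs] at this
    linarith⟩
  have hout : BddBelow (Set.range fun x : {x : Y // N x = 1} => ⨆ F : Cof Y,
      ⨅ y : {y : Y // y ∈ F.1 ∧ N y = 1}, (N (x.1 + t • y.1) - 1)) := ⟨-1, by
    rintro _ ⟨z, rfl⟩
    obtain ⟨F⟩ := hFne
    haveI := exists_unit hN hY F
    refine le_trans ?_ (le_ciSup (hup z.1 z.2) F)
    refine le_ciInf fun y => ?_
    have := apply_nonneg N (z.1 + t • y.1)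
    linarith⟩
  have hlt : deltaBar N t / 2 < ⨆ F : Cof Y, ⨅ y : {y : Y // y ∈ F.1 ∧ N y = 1},
      (N (x + t • y.1) - 1) :=
    lt_of_lt_of_le (half_lt_self hδ) (ciInf_le hout ⟨x, hx⟩)
  obtain ⟨F, hF⟩ := exists_lt_of_lt_ciSup hlt
  refine ⟨F, fun y hy hy1 => ?_⟩
  have := ciInf_le (hb x F) ⟨y, hy, hy1⟩
  linarith

lemma exists_mem_near_of_weaklyNull (F : Cof Y) (u : ℕ → Y)
    (hu : ∀ g : Y →L[ℝ] ℝ, Tendsto (fun j => g (u j)) atTop (𝓝 0)) {η : ℝ} (hη : 0 < η) :
    ∃ j, ∃ y ∈ F.1, ‖y - u j‖ < η := by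
  haveI : IsClosed (F.1 : Set Y) := F.2.1
  haveI := F.2.2
  let E := (Module.finBasis ℝ (Y ⧸ F.1)).equivFunL
  let q : Y →L[ℝ] (Y ⧸ F.1) := F.1.mkQ.mkContinuous 1 fun z => by
    rw [one_mul]; exact Submodule.Quotient.norm_mk_le _ z
  have h1 : Tendsto (fun j => E (q (u j))) atTop (𝓝 0) := tendsto_pi_nhds.2 fun i =>
    hu ((ContinuousLinearMap.proj i).comp (E.toContinuousLinearMap.comp q))
  have h2 : Tendsto (fun j => ‖q (u j)‖) atTop (𝓝 0) := by
    have := ((E.symm.continuous.tendsto 0).comp h1).norm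
    simpa [Function.comp_def] using this
  obtain ⟨j, hj⟩ := (h2.eventually_lt_const (show 0 < η / 2 by positivity)).exists
  obtain ⟨z, hz, hz'⟩ := Submodule.Quotient.norm_mk_lt (q (u j)) (show 0 < η / 2 by positivity)
  refine ⟨j, u j - z, ?_, ?_⟩
  · rw [← Submodule.Quotient.mk_eq_zero, Submodule.Quotient.mk_sub, hz]
    exact sub_self _
  · rw [sub_sub_cancel_left, norm_neg]; linarith

end Generic

/-- The sum of the node vectors on a root path. -/
def S (n : ℕ) (l : List ℕ) (h : l.length ≤ n) : X :=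
  ∑ i ∈ range (l.length + 1), e ⟨(n, l.take i), le_trans (by simp) h⟩

lemma ev_S (φ : K) (n : ℕ) (l : List ℕ) (h : l.length ≤ n) :
    ev φ (S n l h) = pre φ.1 (n, l) := by
  simp [S, map_sum, ev_e, pre]

lemma norm_S_le (n : ℕ) (l : List ℕ) (h : l.length ≤ n) : ‖S n l h‖ ≤ 1 := by
  refine norm_le_of_ev zero_le_one fun φ => ?_
  obtain ⟨q, hq, ht⟩ := φ.2
  rw [ev_S]
  exact abs_le_of_sq_le_sq (by linarith [hq.preBd (n, l), hq.le_tot n]) zero_le_one

lemma one_le_norm_S (n : ℕ) (l : List ℕ) (h : l.length ≤ n) : 1 ≤ ‖S n l h‖ := by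
  refine le_trans (le_of_eq ?_) ((le_abs_self _).trans
    (abs_ev_le ⟨_, adm_single (n, ([] : List ℕ))⟩ (S n l h)))
  rw [ev_S, pre_single]
  simp

lemma S_concat (n : ℕ) (l : List ℕ) (j : ℕ) (h : (l ++ [j]).length ≤ n) :
    S n (l ++ [j]) h = S n l (by simp at h; omega) + e ⟨(n, l ++ [j]), h⟩ := by
  have key : ∀ φ : K, ev φ (S n (l ++ [j]) h)
      = ev φ (S n l (by simp at h; omega) + e ⟨(n, l ++ [j]), h⟩) := fun φ => by
    rw [map_add, ev_S, ev_S, ev_e, pre_concat]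
  exact ext_coord fun v => key _

lemma one_le_norm_e (v : RNode) : 1 ≤ ‖e v‖ := by
  refine le_trans (le_of_eq ?_) ((le_abs_self _).trans (abs_ev_le ⟨_, adm_single v.1⟩ (e v)))
  rw [ev_e]
  simp

lemma weaklyNull_children (n : ℕ) (l : List ℕ) (hl : l.length < n) (g : X →L[ℝ] ℝ) :
    Tendsto (fun j => g (e ⟨(n, l ++ [j]), by simp; omega⟩)) atTop (𝓝 0) := by
  set c : ℕ → RNode := fun j => ⟨(n, l ++ [j]), by simp; omega⟩
  have hc : Function.Injective c := fun i j hij => by simpa [c] using hij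
  set z := (InnerProductSpace.toDual ℝ H).symm (g.comp Jx)
  have hgz : ∀ v, g (e v) = z v := fun v => by
    have h := InnerProductSpace.toDual_symm_apply (𝕜 := ℝ) (x := lp.single 2 v (1 : ℝ))
      (y := g.comp Jx)
    rw [lp.inner_single_right] at h
    simpa [e] using h.symm
  have hs : Summable fun v => z v ^ 2 := by
    simpa [Real.norm_eq_abs] using (lp.memℓp z).summable (by simp)
  have hs' := (hs.comp_injective hc).tendsto_atTop_zero
  change Tendsto (fun j => g (e (c j))) atTop (𝓝 0)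
  simp only [hgz]
  refine squeeze_zero_norm (fun j => ?_) (by simpa using hs'.sqrt)
  simp [Real.norm_eq_abs, Real.sqrt_sq_eq_abs]

lemma deltaBar_fail (N : Seminorm ℝ X) (hN : IsEquivNorm N) :
    ¬ ∀ t : ℝ, 0 < t → 0 < deltaBar N t := by
  intro hall
  obtain ⟨a, b, ha, hab⟩ := id hN
  have hb : 0 < b := by
    have h1 := one_le_norm_S 0 [] le_rfl
    have := hab (S 0 [] le_rfl)
    nlinarith
  set t₀ := a / (2 * b) with ht₀
  have ht : 0 < t₀ := by positivity
  have hδ := hall t₀ ht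
  set c := deltaBar N t₀ / 2
  have hc : 0 < c := half_pos hδ
  have step : ∀ (n : ℕ) (l : List ℕ) (h : l.length < n),
      ∃ (j : ℕ) (h' : (l ++ [j]).length ≤ n),
        N (S n l h.le) * (1 + c / 2) ≤ N (S n (l ++ [j]) h') := by
    intro n l hl
    set s := N (S n l hl.le) with hs
    have hsa : a ≤ s := by nlinarith [(hab (S n l hl.le)).1, one_le_norm_S n l hl.le]
    have hsb : s ≤ b := by nlinarith [(hab (S n l hl.le)).2, norm_S_le n l hl.le]
    have hs0 : 0 < s := ha.trans_le hsa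
    obtain ⟨F, hF⟩ := deltaBar_spec hN not_finiteDimensional hδ (s⁻¹ • S n l hl.le) (by
      rw [map_smul_eq_mul, Real.norm_of_nonneg (by positivity), ← hs, inv_mul_cancel₀ hs0.ne'])
    set η := min (a / (2 * b)) (c * a / (2 * b)) with hη
    have hη0 : 0 < η := lt_min (by positivity) (by positivity)
    obtain ⟨j, y, hy, hyn⟩ := exists_mem_near_of_weaklyNull F
      (fun j => e ⟨(n, l ++ [j]), by simp; omega⟩) (weaklyNull_children n l hl) hη0
    refine ⟨j, by simp; omega, ?_⟩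
    rw [S_concat]
    set ej := e ⟨(n, l ++ [j]), by simp; omega⟩
    have hη1 : b * η ≤ a / 2 := by
      calc b * η ≤ b * (a / (2 * b)) := mul_le_mul_of_nonneg_left (min_le_left _ _) hb.le
        _ = a / 2 := by field_simp
    have hη2 : b * η ≤ c * a / 2 := by
      calc b * η ≤ b * (c * a / (2 * b)) := mul_le_mul_of_nonneg_left (min_le_right _ _) hb.le
        _ = c * a / 2 := by field_simp
    have hd : N (y - ej) ≤ b * η :=
      (hab _).2.trans (mul_le_mul_of_nonneg_left hyn.le hb.le)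
    have hea : a ≤ N ej := by
      nlinarith [(hab ej).1, one_le_norm_e ⟨(n, l ++ [j]), by simp; omega⟩]
    have hey : N ej ≤ N y + N (y - ej) := by
      have := map_sub_le_add N y (y - ej)
      rwa [sub_sub_cancel] at this
    have hy0 : a / 2 ≤ N y := by linarith
    have hypos : 0 < N y := by linarith
    have h1 := hF ((N y)⁻¹ • y) (F.1.smul_mem _ hy) (by
      rw [map_smul_eq_mul, Real.norm_of_nonneg (by positivity), inv_mul_cancel₀ hypos.ne'])
    have htl : t₀ ≤ N y / s := by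
      rw [ht₀, div_le_div_iff₀ (by positivity) hs0]
      nlinarith
    have h2 := convex_growth N (s⁻¹ • S n l hl.le) ((N y)⁻¹ • y) (by
      rw [map_smul_eq_mul, Real.norm_of_nonneg (by positivity), ← hs, inv_mul_cancel₀ hs0.ne'])
      hc.le ht htl h1
    have h3 : s⁻¹ • S n l hl.le + (N y / s) • (N y)⁻¹ • y = s⁻¹ • (S n l hl.le + y) := by
      rw [smul_smul, smul_add]; congr 2; field_simp
    rw [h3, map_smul_eq_mul, Real.norm_of_nonneg (by positivity), le_inv_mul_iff₀ hs0] at h2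
    have h4 : N (S n l hl.le + y) ≤ N (S n l hl.le + ej) + N (y - ej) := by
      have := map_add_le_add N (S n l hl.le + ej) (y - ej)
      rwa [show S n l hl.le + ej + (y - ej) = S n l hl.le + y by abel] at this
    nlinarith
  obtain ⟨n, hn⟩ := pow_unbounded_of_one_lt (b / a) (show (1 : ℝ) < 1 + c / 2 by linarith)
  have main : ∀ k, k ≤ n → ∃ (l : List ℕ) (h : l.length ≤ n),
      l.length = k ∧ a * (1 + c / 2) ^ k ≤ N (S n l h) := by
    intro k
    induction k with
    | zero =>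
      intro _
      refine ⟨[], by simp, rfl, ?_⟩
      have h1 := one_le_norm_S n [] (Nat.zero_le n)
      nlinarith [(hab (S n [] (Nat.zero_le n))).1]
    | succ k ih =>
      intro hk
      obtain ⟨l, h, hlk, hle⟩ := ih (by omega)
      obtain ⟨j, h', hj⟩ := step n l (by omega)
      refine ⟨l ++ [j], h', by simp [hlk], ?_⟩
      rw [pow_succ, ← mul_assoc]
      exact (mul_le_mul_of_nonneg_right hle (by linarith)).trans hj
  obtain ⟨l, h, -, hle⟩ := main n le_rfl
  have h5 := (hab (S n l h)).2.trans (mul_le_of_le_one_right hb.le (norm_S_le n l h))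
  rw [div_lt_iff₀ ha] at hn
  nlinarith

lemma pair_support_congr (f g : Node → ℝ) (φ : Fn) (h : ∀ v, φ v ≠ 0 → f v = g v) :
    pair f φ = pair g φ := by
  rw [pair_apply, pair_apply]
  exact sum_congr rfl fun v hv => by rw [h v (Finsupp.mem_support_iff.1 hv)]

lemma exists_finite_approx (x : X) {η : ℝ} (hη : 0 < η) :
    ∃ (x' : X) (A : Finset Node), ‖x - x'‖ < η ∧ ∀ v, v ∉ A → coord v x' = 0 := by
  classical
  obtain ⟨h, hh⟩ := denseRange_Jx.exists_dist_lt x (half_pos hη)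
  have ht : Tendsto (fun s : Finset RNode => Jx (∑ v ∈ s, lp.single 2 v (h v))) atTop (𝓝 (Jx h)) :=
    (Jx.continuous.tendsto h).comp (lp.hasSum_single ENNReal.ofNat_ne_top h)
  obtain ⟨s, hs⟩ := (Metric.tendsto_nhds.1 ht (η / 2) (half_pos hη)).exists
  refine ⟨Jx (∑ v ∈ s, lp.single 2 v (h v)), s.image Subtype.val, ?_, fun w hw => ?_⟩
  · rw [← dist_eq_norm]
    linarith [dist_triangle x (Jx h) (Jx (∑ v ∈ s, lp.single 2 v (h v))),
      dist_comm (Jx h) (Jx (∑ v ∈ s, lp.single 2 v (h v)))]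
  · rw [map_sum, map_sum]
    refine sum_eq_zero fun v hv => ?_
    have he : Jx (lp.single 2 v (h v)) = h v • e v := by
      rw [e, ← map_smul, ← lp.single_smul, smul_eq_mul, mul_one]
    rw [he, map_smul, coord_e, if_neg, smul_zero]
    exact fun e' => hw (mem_image.2 ⟨v, hv, e'.symm⟩)

/-- Adding a signed multiple of `y` along a compatible functional increases the norm. -/
lemma combo_gain {φ f : Fn} {qφ q : ℕ →₀ ℝ} (hφ : Bd φ qφ) (htφ : tot qφ ≤ 1) (hf : Bd f q)
    (htq : tot q ≤ 1) (hd : ∀ v, φ v = 0 ∨ f v = 0) {σ : ℝ} (hσ : σ ^ 2 = 1)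
    (ho : ∀ v, σ * (pre φ v * pre f v) ≤ 0) (x' y : X)
    (hφy : pair (fun v => coord v y) φ = 0) (hfx : pair (fun v => coord v x') f = 0)
    {α β : ℝ} (hα : 0 ≤ α) (hβ : 0 ≤ β) (hαβ : α ^ 2 + β ^ 2 = 1) (t : ℝ) :
    α * pair (fun v => coord v x') φ + β * t * pair (fun v => coord v y) f
      ≤ ‖x' + (σ * t) • y‖ := by
  have hcb := hφ.combo hf α (σ * β) hd (fun v => by
    nlinarith [mul_nonpos_of_nonneg_of_nonpos (mul_nonneg hα hβ) (ho v)])
  have ht1 : tot (α ^ 2 • qφ + (σ * β) ^ 2 • q) ≤ 1 ^ 2 := by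
    rw [tot_add, tot_smul, tot_smul, mul_pow, hσ, one_mul, one_pow]
    nlinarith [mul_le_mul_of_nonneg_left htφ (sq_nonneg α),
      mul_le_mul_of_nonneg_left htq (sq_nonneg β)]
  have k := abs_pair_le hcb zero_le_one ht1 (x' + (σ * t) • y)
  rw [one_mul] at k
  have hlin : ∀ g : Fn, pair (fun v => coord v (x' + (σ * t) • y)) g
      = pair (fun v => coord v x') g + (σ * t) * pair (fun v => coord v y) g := fun g => by
    simp only [pair_apply, map_add, map_smul, smul_eq_mul, mul_sum, ← sum_add_distrib]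
    exact sum_congr rfl fun v _ => by ring
  rw [map_add, map_smul, map_smul, hlin, hlin, hφy, hfx, smul_eq_mul, smul_eq_mul] at k
  refine le_trans (le_of_eq ?_) ((le_abs_self _).trans k)
  linear_combination (-(β * t * pair (fun v => coord v y) f)) * hσ

/-- The gain from a unit vector vanishing on the support of a finitely supported vector. -/
lemma gain_exists (x' y : X) (φ : Fn) {qφ : ℕ →₀ ℝ} (hqφ : Bd φ qφ) (htφ : tot qφ ≤ 1)
    (G : Finset Node) (hG : Closed G) (hxG : ∀ v, v ∉ G → coord v x' = 0)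
    (hφG : ∀ v, v ∉ G → φ v = 0) (hyG : ∀ v, v ∈ G → coord v y = 0) {η : ℝ} (hη : 0 < η)
    (hy1 : ‖y‖ = 1) {α β : ℝ} (hα : 0 ≤ α) (hβ : 0 ≤ β) (hαβ : α ^ 2 + β ^ 2 = 1) {t : ℝ}
    (ht : 0 < t) :
    ∃ σ : ℝ, (σ = 1 ∨ σ = -1) ∧
      α * pair (fun v => coord v x') φ + β * t * ((1 - η) / 4) ≤ ‖x' + (σ * t) • y‖ := by
  classical
  obtain ⟨ψ, hψ⟩ := exists_ev_gt y hη
  obtain ⟨qψ, hqψ, htψ⟩ := ψ.2
  set h : Fn := (1 / 2 : ℝ) • ψ.1.filter fun v => v ∉ G with hh
  have hb : Bd h qψ := hqψ.halfOff hG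
  have hhG : ∀ v, v ∈ G → h v = 0 := fun v hv => by simp [hh, hv]
  obtain ⟨u, w, huw, hu, hw, hu0, hw0, huo, hwo⟩ := exists_split hG hφG hhG hb
  have hhy : pair (fun v => coord v y) h = (1 / 2) * ev ψ y := by
    rw [ev_eq, hh, map_smul, smul_eq_mul]
    congr 1
    conv_rhs => rw [← Finsupp.filter_add_filter_not ψ.1 fun v => v ∈ G, map_add]
    have : pair (fun v => coord v y) (ψ.1.filter fun v => v ∈ G) = 0 := by
      rw [pair_support_congr _ (fun _ => (0 : ℝ)) _ fun v hv => hyG v ?_]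
      · simp [pair_apply]
      · by_contra hvG
        exact hv (by simp [hvG])
    rw [this, zero_add]
  rw [← huw, map_add] at hhy
  have hφy : pair (fun v => coord v y) φ = 0 := by
    rw [pair_support_congr _ (fun _ => (0 : ℝ)) _ fun v hv => hyG v ?_]
    · simp [pair_apply]
    · by_contra hvG; exact hv (hφG v hvG)
  have hux : ∀ f : Fn, (∀ v, h v = 0 → f v = 0) → pair (fun v => coord v x') f = 0 := fun f hf => by
    rw [pair_support_congr _ (fun _ => (0 : ℝ)) _
      fun v hv => hxG v fun hvG => hv (hf v (hhG v hvG))]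
    simp [pair_apply]
  have hdisj : ∀ f : Fn, (∀ v, h v = 0 → f v = 0) → ∀ v, φ v = 0 ∨ f v = 0 := fun f hf v => by
    by_cases hv : v ∈ G
    · exact Or.inr (hf v (hhG v hv))
    · exact Or.inl (hφG v hv)
  have finish : ∀ (σ : ℝ) (f : Fn), Bd f qψ → (∀ v, h v = 0 → f v = 0) →
      (∀ v, σ * (pre φ v * pre f v) ≤ 0) → σ ^ 2 = 1 →
      (1 - η) / 4 ≤ pair (fun v => coord v y) f →
      α * pair (fun v => coord v x') φ + β * t * ((1 - η) / 4) ≤ ‖x' + (σ * t) • y‖ := by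
    intro σ f hf hf0 hfo hσ hfy
    refine le_trans ?_
      (combo_gain hqφ htφ hf htψ (hdisj f hf0) hσ hfo x' y hφy (hux f hf0) hα hβ hαβ t)
    exact add_le_add_right (mul_le_mul_of_nonneg_left hfy (mul_nonneg hβ ht.le)) _
  rcases le_total (pair (fun v => coord v y) u) (pair (fun v => coord v y) w) with hc | hc
  · exact ⟨-1, Or.inr rfl,
      finish (-1) w hw hw0 (fun v => by linarith [hwo v]) (by norm_num) (by linarith)⟩
  · exact ⟨1, Or.inl rfl,
      finish 1 u hu hu0 (fun v => by linarith [huo v]) (by norm_num) (by linarith)⟩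

lemma norm_signed_le_max (z y : X) (t : ℝ) {σ : ℝ} (h : σ = 1 ∨ σ = -1) :
    ‖z + (σ * t) • y‖ ≤ max ‖z + t • y‖ ‖z - t • y‖ := by
  rcases h with h | h
  · rw [show σ * t = t by rw [h, one_mul]]; exact le_max_left _ _
  · rw [show σ * t = -t by rw [h, neg_one_mul]]
    refine le_trans (le_of_eq ?_) (le_max_right _ _)
    exact congrArg _ (by rw [sub_eq_add_neg]; exact congrArg _ (neg_smul t y))

lemma perturb_le (x x' z : X) {η : ℝ} (h : ‖x - x'‖ < η) : ‖x' + z‖ ≤ ‖x + z‖ + η := by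
  calc ‖x' + z‖ = ‖(x + z) - (x - x')‖ := by congr 1; abel
    _ ≤ _ := (norm_sub_le _ _).trans (by linarith)

lemma amuc_key (x : X) (hx : ‖x‖ = 1) (t : ℝ) (ht : 0 < t) {η : ℝ} (hη : 0 < η) :
    ∃ F : Cof X, ∀ y, y ∈ F.1 → ‖y‖ = 1 →
      Real.sqrt (1 + t ^ 2 / 16) - η * (3 + t) ≤ max ‖x + t • y‖ ‖x - t • y‖ := by
  classical
  obtain ⟨x', A, hxx, hA⟩ := exists_finite_approx x hη
  obtain ⟨φ, hφ⟩ := exists_ev_gt x' hη
  obtain ⟨qφ, hqφ, htφ⟩ := φ.2
  set G := closure' (A ∪ φ.1.support)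
  have hG : Closed G := closed_closure' _
  let T : X →L[ℝ] (G → ℝ) := ContinuousLinearMap.pi fun v => coord v.1
  refine ⟨⟨LinearMap.ker T.toLinearMap, T.isClosed_ker,
    Module.Finite.equiv T.toLinearMap.quotKerEquivRange.symm⟩, fun y hy hy1 => ?_⟩
  have hyG : ∀ v ∈ G, coord v y = 0 := fun v hv => congrFun (LinearMap.mem_ker.1 hy) ⟨v, hv⟩
  have hφG : ∀ v, v ∉ G → φ.1 v = 0 := fun v hv => Finsupp.notMem_support_iff.1
    fun h => hv (subset_closure' _ (mem_union_right A h))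
  have hxG : ∀ v, v ∉ G → coord v x' = 0 := fun v hv =>
    hA v fun h => hv (subset_closure' _ (mem_union_left _ h))
  set L := Real.sqrt (1 + t ^ 2 / 16) with hL
  have hL0 : 0 < L := Real.sqrt_pos.2 (by positivity)
  have hL2 : L ^ 2 = 1 + t ^ 2 / 16 := Real.sq_sqrt (by positivity)
  have hα0 : 0 ≤ 1 / L := by positivity
  have hβ0 : 0 ≤ t / 4 / L := by positivity
  have hαβ : (1 / L) ^ 2 + (t / 4 / L) ^ 2 = 1 := by field_simp; linarith
  have hα1 : 1 / L ≤ 1 := by nlinarith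
  have hβ1 : t / 4 / L ≤ 1 := by nlinarith
  have hval : 1 / L + t / 4 / L * (t / 4) = L := by field_simp; linarith
  obtain ⟨σ, hσ, hk⟩ := gain_exists x' y φ.1 hqφ htφ G hG hxG hφG hyG hη hy1 hα0 hβ0 hαβ ht
  refine le_trans ?_ (norm_signed_le_max x y t hσ)
  have hd := perturb_le x x' ((σ * t) • y) hxx
  have hx'1 : 1 - η ≤ ‖x'‖ := by
    have := norm_le_norm_add_norm_sub' x x'
    linarith
  rw [ev_eq] at hφ
  have m1 : 1 / L * (1 - 2 * η) ≤ 1 / L * pair (fun v => coord v x') φ.1 :=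
    mul_le_mul_of_nonneg_left (by linarith) hα0
  have e1 : 1 / L * η ≤ η := mul_le_of_le_one_left hη.le hα1
  have e2 : t / 4 / L * (t * η) ≤ t * η := mul_le_of_le_one_left (by positivity) hβ1
  have e3 : 0 ≤ t * η := by positivity
  linarith

lemma midMod_bound (t : ℝ) (ht : 0 < t) :
    Real.sqrt (1 + t ^ 2 / 16) - 1 ≤ midMod (normSeminorm ℝ X) t := by
  have hN : IsEquivNorm (normSeminorm ℝ X) := ⟨1, 1, one_pos, fun x => by simp⟩
  haveI : Nonempty {x : X // normSeminorm ℝ X x = 1} := by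
    obtain ⟨y⟩ := exists_unit hN not_finiteDimensional (Classical.choice cof_nonempty)
    exact ⟨⟨y.1, y.2.2⟩⟩
  refine le_ciInf fun x => le_of_forall_pos_le_add fun ε hε => ?_
  obtain ⟨F, hF⟩ := amuc_key x.1 x.2 t ht (show 0 < ε / (3 + t) by positivity)
  haveI := exists_unit hN not_finiteDimensional F
  have hup : BddAbove (Set.range fun F : Cof X => ⨅ y : {y : X // y ∈ F.1 ∧ normSeminorm ℝ X y = 1},
      (max (normSeminorm ℝ X (x.1 + t • y.1)) (normSeminorm ℝ X (x.1 - t • y.1)) - 1)) := ⟨t, by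
    rintro _ ⟨F, rfl⟩
    obtain ⟨y⟩ := exists_unit hN not_finiteDimensional F
    refine (ciInf_le ⟨-1, ?_⟩ y).trans ?_
    · rintro _ ⟨z, rfl⟩
      have h0 : 0 ≤ max (normSeminorm ℝ X (x.1 + t • z.1)) (normSeminorm ℝ X (x.1 - t • z.1)) :=
        le_trans (apply_nonneg (normSeminorm ℝ X) (x.1 + t • z.1)) (le_max_left _ _)
      linarith
    · have hx1 : ‖x.1‖ = 1 := x.2
      have hy1 : ‖y.1‖ = 1 := y.2.2
      have h1 := norm_add_le x.1 (t • y.1)
      have h2 := norm_sub_le x.1 (t • y.1)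
      rw [norm_smul, Real.norm_of_nonneg ht.le, hy1, hx1] at h1 h2
      simp only [coe_normSeminorm]
      have := max_le h1 h2
      linarith⟩
  refine le_trans ?_ (add_le_add_left (le_ciSup hup F) ε)
  rw [← sub_le_iff_le_add]
  refine le_ciInf fun y => ?_
  have := hF y.1 y.2.1 y.2.2
  rw [div_mul_cancel₀ _ (by positivity : (3 + t : ℝ) ≠ 0)] at this
  simp only [coe_normSeminorm]
  linarith

end Vale.Agent.P069
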