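import Vale.Agent.P069.Comb
import Mathlib.Analysis.InnerProductSpace.Dual
import Mathlib.Analysis.InnerProductSpace.l2Space
import Mathlib.Analysis.Normed.Lp.lpSpace
import Mathlib.Analysis.Normed.Module.DoubleDual

/-! The Banach space attached to the admissible functionals. -/

noncomputable section

namespace Vale.Agent.P069

open Finset
open scoped ENNReal

/-- Admissible functionals. -/
def Adm (φ : Fn) : Prop := ∃ q, Bd φ q ∧ tot q ≤ 1

/-- The norming set. -/
abbrev K : Type := {φ : Fn // Adm φ}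

/-- Nodes of the forest: in component `n` the paths of length at most `n`. -/
abbrev RNode : Type := {v : Node // v.2.length ≤ v.1}

/-- The Hilbert space on the forest. -/
abbrev H : Type := lp (fun _ : RNode => ℝ) 2

/-- The ambient space. -/
abbrev Amb : Type := lp (fun _ : K => ℝ) ∞

/-- The extension of `h` by zero. -/
def hv (h : H) (v : Node) : ℝ := if hr : v.2.length ≤ v.1 then h ⟨v, hr⟩ else 0

lemma hv_add (h k : H) : hv (h + k) = hv h + hv k := by
  funext v; simp only [hv, Pi.add_apply]; split <;> simp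

lemma hv_smul (c : ℝ) (h : H) : hv (c • h) = c • hv h := by
  funext v; simp only [hv, Pi.smul_apply]; split <;> simp

lemma hv_real (h : H) (v : RNode) : hv h v.1 = h v := by simp [hv, v.2]

lemma sum_hv_sq_le (h : H) (s : Finset Node) : ∑ v ∈ s, hv h v ^ 2 ≤ ‖h‖ ^ 2 := by
  have h1 := lp.sum_rpow_le_norm_rpow (p := 2) (by simp) h
    (s.subtype fun v : Node => v.2.length ≤ v.1)
  simp only [ENNReal.toReal_ofNat, Real.rpow_two, Real.norm_eq_abs, sq_abs] at h1
  refine le_trans (le_of_eq ?_) h1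
  rw [← Finset.sum_filter_of_ne (p := fun v : Node => v.2.length ≤ v.1) (fun v _ hne => by
    by_contra hr; simp [hv, hr] at hne), ← Finset.sum_subtype_eq_sum_filter]
  exact sum_congr rfl fun v _ => by rw [hv_real]
    
/-- The pairing with a function on nodes. -/
def pair (a : Node → ℝ) : Fn →ₗ[ℝ] ℝ := Finsupp.linearCombination ℝ a

lemma pair_apply (a : Node → ℝ) (φ : Fn) : pair a φ = ∑ v ∈ φ.support, φ v * a v := by
  simp [pair, Finsupp.linearCombination_apply, Finsupp.sum]

lemma pair_single (a : Node → ℝ) (v : Node) (c : ℝ) : pair a (Finsupp.single v c) = c * a v := by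
  simp [pair]

lemma pair_hv_le (h : H) {φ : Fn} (hφ : Adm φ) : |pair (hv h) φ| ≤ ‖h‖ := by
  obtain ⟨q, hq, ht⟩ := hφ
  rw [pair_apply]
  refine abs_le_of_sq_le_sq ?_ (norm_nonneg _)
  calc (∑ v ∈ φ.support, φ v * hv h v) ^ 2
      ≤ (∑ v ∈ φ.support, φ v ^ 2) * ∑ v ∈ φ.support, hv h v ^ 2 := sum_mul_sq_le_sq_mul_sq _ _ _
    _ ≤ 1 * ‖h‖ ^ 2 := by
        exact mul_le_mul ((hq.sum_sq_le _).trans ht) (sum_hv_sq_le _ _)
          (sum_nonneg fun _ _ => sq_nonneg _) zero_le_one
    _ = _ := one_mul _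

lemma memAmb (h : H) : Memℓp (fun φ : K => pair (hv h) φ.1) ∞ :=
  memℓp_infty ⟨‖h‖, by rintro _ ⟨φ, rfl⟩; exact pair_hv_le h φ.2⟩

/-- The map from the Hilbert space into the ambient space, as a linear map. -/
def JLin : H →ₗ[ℝ] Amb where
  toFun h := ⟨fun φ : K => pair (hv h) φ.1, memAmb h⟩
  map_add' h k := by
    ext φ
    change pair (hv (h + k)) φ.1 = pair (hv h) φ.1 + pair (hv k) φ.1
    simp [pair_apply, hv_add, mul_add, sum_add_distrib]
  map_smul' c h := by
    ext φ
    change pair (hv (c • h)) φ.1 = c * pair (hv h) φ.1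
    simp [pair_apply, hv_smul, mul_sum, mul_left_comm]

/-- The map from the Hilbert space into the ambient space. -/
def J : H →L[ℝ] Amb := JLin.mkContinuous 1 fun h => by
  refine lp.norm_le_of_forall_le (by positivity) fun φ => ?_
  simpa [JLin] using pair_hv_le h φ.2

/-- The closed subspace of the ambient space generated by the forest. -/
def Xsub : Submodule ℝ Amb := (LinearMap.range J.toLinearMap).topologicalClosure

/-- The space. -/
abbrev X : Type := Xsub

instance instNormedX : NormedAddCommGroup X := inferInstance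

instance instNormedSpaceX : NormedSpace ℝ X := inferInstance

instance instModuleX : Module ℝ X := instNormedSpaceX.toModule

instance : CompleteSpace X := (Submodule.isClosed_topologicalClosure _).completeSpace_coe

lemma J_mem (h : H) : J h ∈ Xsub :=
  Submodule.le_topologicalClosure _ ⟨h, rfl⟩

/-- The map from the Hilbert space into the space. -/
def Jx : H →L[ℝ] X := J.codRestrict Xsub J_mem

lemma denseRange_Jx : DenseRange Jx := by
  intro x
  rw [closure_subtype]
  have := x.2
  refine closure_mono ?_ this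
  rintro _ ⟨h, rfl⟩
  exact ⟨Jx h, ⟨h, rfl⟩, rfl⟩

/-- Evaluation at a norming functional. -/
def ev (φ : K) : X →L[ℝ] ℝ := (lp.evalCLM ℝ (fun _ : K => ℝ) ∞ φ).comp Xsub.subtypeL

lemma ev_Jx (φ : K) (h : H) : ev φ (Jx h) = pair (hv h) φ.1 := rfl

lemma abs_ev_le (φ : K) (x : X) : |ev φ x| ≤ ‖x‖ :=
  lp.norm_apply_le_norm (E := fun _ : K => ℝ) ENNReal.top_ne_zero x.1 φ

lemma norm_le_of_ev {x : X} {C : ℝ} (hC : 0 ≤ C) (h : ∀ φ, |ev φ x| ≤ C) : ‖x‖ ≤ C :=
  lp.norm_le_of_forall_le hC h

lemma adm_single (v : Node) : Adm (Finsupp.single v 1) :=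
  ⟨_, Bd.single v 1, by simp [tot_single]⟩

/-- A coordinate. -/
def coord (v : Node) : X →L[ℝ] ℝ := ev ⟨_, adm_single v⟩

lemma coord_Jx (v : Node) (h : H) : coord v (Jx h) = hv h v := by
  simp [coord, ev_Jx, pair_single]

lemma continuous_pair_coord (φ : Fn) : Continuous fun x : X => pair (fun v => coord v x) φ := by
  simp only [pair_apply]
  fun_prop

lemma ev_eq (φ : K) (x : X) : ev φ x = pair (fun v => coord v x) φ.1 := by
  refine denseRange_Jx.induction_on x
    (isClosed_eq (ev φ).continuous (continuous_pair_coord _)) fun h => ?_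
  simp [ev_Jx, coord_Jx]

lemma coord_zero_of_not_real {v : Node} (hr : ¬ v.2.length ≤ v.1) (x : X) : coord v x = 0 := by
  refine denseRange_Jx.induction_on x
    (isClosed_eq (coord v).continuous continuous_const) fun h => ?_
  simp [coord_Jx, hv, hr]

lemma ext_coord {x y : X} (h : ∀ v, coord v x = coord v y) : x = y := by
  have : ‖x - y‖ ≤ 0 := norm_le_of_ev le_rfl fun φ => by simp [ev_eq, map_sub, h, pair_apply]
  exact sub_eq_zero.1 (norm_le_zero_iff.1 this)

lemma abs_pair_le {φ : Fn} {q : ℕ →₀ ℝ} (hφ : Bd φ q) {r : ℝ} (hr : 0 ≤ r) (ht : tot q ≤ r ^ 2)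
    (x : X) : |pair (fun v => coord v x) φ| ≤ r * ‖x‖ := by
  refine le_of_forall_pos_le_add fun ε hε => ?_
  set d : ℝ := ε / (‖x‖ + 1) with hd
  have hd0 : 0 < d := by positivity
  have hr' : 0 < r + d := by linarith
  have hA : Adm ((r + d)⁻¹ • φ) := by
    refine ⟨_, hφ.smul _, ?_⟩
    rw [tot_smul, inv_pow, inv_mul_le_iff₀ (by positivity), mul_one]
    nlinarith
  have := abs_ev_le ⟨_, hA⟩ x
  rw [ev_eq] at this
  simp only [map_smul, smul_eq_mul, abs_mul, abs_inv, abs_of_pos hr'] at this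
  rw [inv_mul_le_iff₀ hr'] at this
  have hdx : d * ‖x‖ ≤ ε := by
    rw [hd, div_mul_eq_mul_div, div_le_iff₀ (by positivity)]
    nlinarith [norm_nonneg x]
  nlinarith

lemma exists_ev_gt (x : X) {η : ℝ} (hη : 0 < η) : ∃ φ : K, ‖x‖ - η < ev φ x := by
  by_contra hne
  push Not at hne
  have h0 : 0 ≤ ‖x‖ - η := by
    have h := hne ⟨0, 0, ⟨fun _ => le_rfl, fun _ _ _ => by simp, fun _ => by simp [pre]⟩, by simp [tot]⟩
    simpa [ev_eq, pair_apply] using h
  have := norm_le_of_ev h0 (fun φ => abs_le.2 ⟨?_, hne φ⟩)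
  · linarith
  · obtain ⟨q, hq, ht⟩ := φ.2
    have hneg : Adm (-φ.1) := ⟨q, by simpa using hq.smul (-1), ht⟩
    have := hne ⟨_, hneg⟩
    simp only [ev_eq, map_neg] at this ⊢
    linarith

/-- The node vectors. -/
def e (v : RNode) : X := Jx (lp.single 2 v 1)

lemma coord_e (v : RNode) (w : Node) : coord w (e v) = if w = v.1 then 1 else 0 := by
  rw [e, coord_Jx]
  by_cases hw : w = v.1
  · subst hw; simp [hv_real]
  · rw [if_neg hw, hv]
    split
    · next hr =>
      have hne : (⟨w, hr⟩ : RNode) ≠ v := fun e' => hw (congrArg Subtype.val e')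
      simp [hne]
    · rfl

lemma ev_e (φ : K) (v : RNode) : ev φ (e v) = φ.1 v.1 := by
  classical
  rw [ev_eq, pair_apply]
  simp only [coord_e, mul_ite, mul_one, mul_zero]
  rw [Finset.sum_ite_eq']
  split
  · rfl
  · next h => exact (Finsupp.notMem_support_iff.1 h).symm

end Vale.Agent.P069
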